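import Vale.Agent.P342.Defs
import Vale.Agent.P342.H403.Borsuk

/-! P342: no colouring of the types with signs (from Borsuk-Ulam). -/

namespace Vale.Agent.P342

open Finset

variable {l : ℕ}

theorem no_col {m : ℕ} (hm : 1 ≤ m)
    (Qs : (Fin l → ℕ) → (Fin l → Bool) → Finset (Fin l))
    (hne : ∀ t y, IsType m t → (Qs t y).Nonempty)
    (h0 : ∀ t y y1, IsType m t → (∀ b, t b ≠ 0 → y b = y1 b) → Qs t y = Qs t y1)
    (hd : ∀ t t1 y, IsType m t → IsType m t1 → Near t t1 →
      Disjoint (Qs t y) (Qs t1 (fun b => !y b))) (hl : 0 < l) : False := by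
  classical
  -- the colouring
  let ty : (Fin l → ℤ) → (Fin l → ℕ) := fun s b => (s b).natAbs
  let sg : (Fin l → ℤ) → (Fin l → Bool) := fun s b => decide (s b < 0)
  let a : (Fin l → ℤ) → Fin l := fun s =>
    if h : IsType m (ty s) then (hne (ty s) (sg s) h).choose else ⟨0, hl⟩
  obtain ⟨s, s', h1, h2, h3, h4, h5, h6⟩ := borsuk l l m hm le_rfl a
  have hty : ∀ s : Fin l → ℤ, (∀ b, |s b| ≤ m) → (∃ b, |s b| = m) → IsType m (ty s) := by
    intro s h1 h2
    refine ⟨fun b => ?_, ?_⟩
    · have h := h1 b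
      rw [Int.abs_eq_natAbs] at h
      exact_mod_cast h
    · obtain ⟨b, hb⟩ := h2
      refine ⟨b, ?_⟩
      rw [Int.abs_eq_natAbs] at hb
      exact_mod_cast hb
  have t1 := hty s h1 h2
  have t2 := hty s' h3 h4
  have ha : a s ∈ Qs (ty s) (sg s) := by
    simp only [a, dif_pos t1]
    exact (hne (ty s) (sg s) t1).choose_spec
  have ha' : a s' ∈ Qs (ty s') (sg s') := by
    simp only [a, dif_pos t2]
    exact (hne (ty s') (sg s') t2).choose_spec
  -- common sign vector
  let y : Fin l → Bool := fun b => if s b ≠ 0 then decide (s b < 0) else !decide (s' b < 0)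
  have e1 : Qs (ty s) (sg s) = Qs (ty s) y := by
    refine h0 _ _ _ t1 fun b hb => ?_
    have hb' : s b ≠ 0 := by
      intro h
      apply hb
      simp only [ty, h]
      rfl
    simp only [sg, y, if_pos hb']
  have e2 : Qs (ty s') (sg s') = Qs (ty s') (fun b => !y b) := by
    refine h0 _ _ _ t2 fun b hb => ?_
    have hb' : s' b ≠ 0 := by
      intro h
      apply hb
      simp only [ty, h]
      rfl
    simp only [sg, y]
    by_cases hs : s b ≠ 0
    · rw [if_pos hs]
      have h7 := h5 b
      rw [← decide_not]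
      apply decide_eq_decide.2
      rw [abs_le] at h7
      omega
    · rw [if_neg hs, Bool.not_not]
  have hnear : Near (ty s) (ty s') := by
    intro b
    have h7 := h5 b
    rw [abs_le] at h7
    simp only [ty]
    omega
  have h8 := hd (ty s) (ty s') y t1 t2 hnear
  rw [e1] at ha
  rw [e2, ← h6] at ha'
  exact (Finset.disjoint_left.1 h8 ha) ha'

end Vale.Agent.P342
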