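import Vale.Agent.P342.Defs

/-! P342: assembly of the soundness theorem. -/

namespace Vale.Agent.P342

open Vale.Agent.Lib.PCP Finset

variable {l r : ℕ}

/-! ### Washing is a bijection in the second argument -/

theorem wash_injective {Q : ℕ} [NeZero Q] (U0 : Finset (Fin l)) (e : Fin l → Ed r)
    (θ : (Fin l → Fin r) → Fin Q) : Function.Injective (wash Q U0 e θ) := by
  intro ζ ζ' h
  funext i
  have := congrFun h i
  unfold wash at this
  split_ifs at this with h1
  · exact add_left_cancel this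
  · exact this

/-- Shift of the base field by the half circle at the labels `ρ` with `y (lev ρ)`. -/
def shift (Q : ℕ) [NeZero Q] (lev : (Fin l → Fin r) → Fin l) (y : Fin l → Bool)
    (θ : (Fin l → Fin r) → Fin Q) : (Fin l → Fin r) → Fin Q :=
  fun ρ => if y (lev ρ) then θ ρ + Fin.ofNat Q (Q / 2) else θ ρ

theorem half_add_half {Q : ℕ} [NeZero Q] (hQ : Even Q) :
    (Fin.ofNat Q (Q / 2) : Fin Q) + Fin.ofNat Q (Q / 2) = 0 := by
  obtain ⟨q, hq⟩ := hQ
  have h2 : Q / 2 = q := by omega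
  apply Fin.ext
  rw [Fin.val_add, h2]
  simp only [Fin.ofNat, Fin.val_zero]
  rcases Nat.eq_zero_or_pos q with h | h
  · subst h; simp
  · rw [Nat.mod_eq_of_lt (a := q) (by omega), ← hq, Nat.mod_self]

theorem shift_not {Q : ℕ} [NeZero Q] (hQ : Even Q) (lev : (Fin l → Fin r) → Fin l)
    (y : Fin l → Bool) (θ : (Fin l → Fin r) → Fin Q) (ρ : Fin l → Fin r) :
    shift Q lev (fun b => !y b) θ ρ = shift Q lev y θ ρ + Fin.ofNat Q (Q / 2) := by
  have h2 := half_add_half (Q := Q) hQ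
  unfold shift
  by_cases h : y (lev ρ) = true
  · rw [if_neg (by simp [h]), if_pos h, add_assoc, h2, add_zero]
  · rw [Bool.not_eq_true] at h
    rw [if_pos (by simp [h]), if_neg (by simp [h])]

/-- A counting lemma. -/
theorem exists_avoid {Θ Z P : Type} [Fintype Θ] [Fintype Z] [Fintype P] [Nonempty Θ]
    (bad : P → Θ → Z → Prop) [∀ p θ, DecidablePred (bad p θ)] (B : ℝ)
    (hB : ∀ p θ, ((univ.filter fun ζ : Z => bad p θ ζ).card : ℝ) ≤ B)
    (h : Fintype.card P * B < Fintype.card Z) : ∃ (θ : Θ) (ζ : Z), ∀ p, ¬ bad p θ ζ := by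
  obtain ⟨θ⟩ := ‹Nonempty Θ›
  refine ⟨θ, ?_⟩
  by_contra hcon
  push Not at hcon
  classical
  have hcover : (univ : Finset Z) ⊆
      (univ : Finset P).biUnion fun p => univ.filter fun ζ : Z => bad p θ ζ := by
    intro ζ _
    obtain ⟨p, hp⟩ := hcon ζ
    rw [Finset.mem_biUnion]
    exact ⟨p, mem_univ _, by simpa using hp⟩
  have h4 := (Finset.card_le_card hcover).trans Finset.card_biUnion_le
  rw [Finset.card_univ] at h4
  have h5 : (Fintype.card Z : ℝ) ≤ ∑ p : P, ((univ.filter fun ζ : Z => bad p θ ζ).card : ℝ) := by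
    exact_mod_cast h4
  have h6 : ∑ p : P, ((univ.filter fun ζ : Z => bad p θ ζ).card : ℝ) ≤ Fintype.card P * B := by
    refine (Finset.sum_le_sum fun p _ => hB p θ).trans ?_
    rw [Finset.sum_const, Finset.card_univ, nsmul_eq_mul]
  linarith

open Classical in
/-- The counting step: one point that is good for all the types, signs and colours. -/
theorem exists_good {Q c : ℕ} [NeZero Q] {T : Type} [Fintype T] (e : Fin l → Ed r)
    (U0 : T → Finset (Fin l)) (F : T → (Ix l r → Fin Q) → Fin c) (J : T → Finset (Ix l r))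
    (lev : (Fin l → Fin r) → Fin l) (D : ℕ) {η : ℝ}
    (hη : Fintype.card T * 2 ^ l * c * η < 1)
    (hJ : ∀ t a, ((univ.filter fun x : Ix l r → Fin Q =>
      Dense (F t) (J t) a x ∧ Far D (F t) a x).card : ℝ) ≤ η * (Q : ℝ) ^ Fintype.card (Ix l r)) :
    ∃ (θ : (Fin l → Fin r) → Fin Q) (ζ : Ix l r → Fin Q), ∀ t y a,
      Dense (F t) (J t) a (wash Q (U0 t) e (shift Q lev y θ) ζ) →
      ¬ Far D (F t) a (wash Q (U0 t) e (shift Q lev y θ) ζ) := by
  have hQ0 : (0 : ℝ) < Q := by exact_mod_cast Nat.pos_of_ne_zero (NeZero.ne Q)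
  obtain ⟨θ, ζ, h⟩ := exists_avoid (Θ := (Fin l → Fin r) → Fin Q) (Z := Ix l r → Fin Q)
    (P := T × (Fin l → Bool) × Fin c)
    (fun p θ ζ => Dense (F p.1) (J p.1) p.2.2 (wash Q (U0 p.1) e (shift Q lev p.2.1 θ) ζ) ∧
        Far D (F p.1) p.2.2 (wash Q (U0 p.1) e (shift Q lev p.2.1 θ) ζ))
    (η * (Q : ℝ) ^ Fintype.card (Ix l r)) (by
      intro p θ
      refine le_trans ?_ (hJ p.1 p.2.2)
      have h1 := Finset.card_le_card_of_injOn (s := univ.filter fun ζ : Ix l r → Fin Q =>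
          Dense (F p.1) (J p.1) p.2.2 (wash Q (U0 p.1) e (shift Q lev p.2.1 θ) ζ) ∧
          Far D (F p.1) p.2.2 (wash Q (U0 p.1) e (shift Q lev p.2.1 θ) ζ))
        (t := univ.filter fun x : Ix l r → Fin Q =>
          Dense (F p.1) (J p.1) p.2.2 x ∧ Far D (F p.1) p.2.2 x)
        (wash Q (U0 p.1) e (shift Q lev p.2.1 θ))
        (by
          intro ζ hζ
          rw [Finset.mem_coe, Finset.mem_filter] at hζ ⊢
          exact ⟨mem_univ _, hζ.2⟩)
        (wash_injective _ _ _).injOn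
      exact (Nat.cast_le (α := ℝ)).2 h1) (by
      have h5 : ((Fintype.card (Ix l r → Fin Q) : ℕ) : ℝ) = (Q : ℝ) ^ Fintype.card (Ix l r) := by
        rw [Fintype.card_fun, Fintype.card_fin, Nat.cast_pow]
      have h6 : ((Fintype.card (T × (Fin l → Bool) × Fin c) : ℕ) : ℝ) =
          Fintype.card T * 2 ^ l * c := by
        rw [Fintype.card_prod, Fintype.card_prod, Fintype.card_fun, Fintype.card_bool,
          Fintype.card_fin, Fintype.card_fin, Nat.cast_mul, Nat.cast_mul, Nat.cast_pow]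
        push_cast
        ring
      rw [h5, h6]
      have h7 : 0 < (Q : ℝ) ^ Fintype.card (Ix l r) := by positivity
      nlinarith)
  exact ⟨θ, ζ, fun t y a h1 h2 => h (t, y, a) ⟨h1, h2⟩⟩

end Vale.Agent.P342
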