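import Vale.Agent.P342.Defs

/-! P342: completeness. -/

namespace Vale.Agent.P342

open Vale.Agent.Lib.PCP Finset

variable {r : ℕ}

/-- MODULE D: completeness. -/
theorem completeness (l : ℕ) {G : PG ℕ ℕ (Fin r) (Fin r)} (h : G.Perfect) :
    ∃ col : Vx l r → Fin 3, ∀ v v', Adj G v v' → col v ≠ col v' := by
  obtain ⟨a, b, hab⟩ := h
  have hsat : ∀ c ∈ G, c.2.2 (a c.1) = b c.2.1 := by
    unfold PG.sat at hab
    rw [List.countP_eq_length] at hab
    intro c hc
    simpa using hab c hc
  refine ⟨fun v => v.2 fun i => if (v.1 i).1 = true then a (v.1 i).2 else b (v.1 i).2, ?_⟩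
  rintro v v' ⟨e, he, U, U', h1, h2, h3⟩
  have key : ∀ W : Finset (Fin l), (fun i => if (vert e W i).1 = true then a (vert e W i).2
      else b (vert e W i).2) = proj e univ W fun i => a (e i).1 := by
    intro W
    funext i
    by_cases hi : i ∈ W
    · simp [vert, proj, hi]
    · simp [vert, proj, hi, hsat _ (he i)]
  have h4 := h3 fun i => a (e i).1
  rw [← key U, ← key U'] at h4
  dsimp only
  rw [h1, h2]
  exact h4

end Vale.Agent.P342
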