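import Vale.Agent.P342.Defs

/-! P342: short lists on both sides of a game of small value. -/

namespace Vale.Agent.P342

open Vale.Agent.Lib.PCP Finset

variable {l r : ℕ}

/-- Elements of a short finset, enumerated. -/
theorem exists_enum {K : ℕ} (hr : 0 < r) (s : ℕ → Finset (Fin r)) (hs : ∀ n, (s n).card ≤ K) :
    ∃ a : Fin K → ℕ → Fin r, ∀ n, ∀ x ∈ s n, ∃ i, a i n = x := by
  classical
  refine ⟨fun i n => if h : (i : ℕ) < (s n).card then ((s n).equivFin.symm ⟨i, h⟩ : Fin r)
    else ⟨0, hr⟩, fun n x hx => ?_⟩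
  have h1 := ((s n).equivFin ⟨x, hx⟩).2
  refine ⟨⟨((s n).equivFin ⟨x, hx⟩ : ℕ), lt_of_lt_of_le h1 (hs n)⟩, ?_⟩
  dsimp only
  rw [dif_pos h1]
  simp

theorem card_filter_get {α : Type} (G : List α) (p : α → Bool) :
    (univ.filter fun j : Fin G.length => p (G.get j) = true).card = G.countP p := by
  classical
  have h1 : (univ.filter fun j : Fin G.length => p (G.get j) = true).card =
      ∑ j : Fin G.length, if p (G.get j) = true then 1 else 0 := Finset.card_filter _ _
  rw [h1]
  clear h1
  induction G with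
  | nil => simp
  | cons a G ih =>
    rw [List.countP_cons, ← ih, add_comm]
    exact Fin.sum_univ_succ (n := G.length)
      (fun j => if p ((a :: G).get j) = true then 1 else 0)

/-- One block. -/
theorem one_block (hr : 0 < r) {η : ℝ} {G : PG ℕ ℕ (Fin r) (Fin r)} (hs : G.Sound η) {K : ℕ}
    (A B : ℕ → Finset (Fin r)) (hA : ∀ n, (A n).card ≤ K) (hB : ∀ n, (B n).card ≤ K)
    (P : Fin G.length → Prop) [DecidablePred P]
    (hP : ∀ j, P j → ∃ s ∈ A (G.get j).1, ∃ u ∈ B (G.get j).2.1, (G.get j).2.2 s = u) :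
    ((univ.filter fun j : Fin G.length => P j).card : ℝ) ≤ η * K ^ 2 * G.length := by
  classical
  obtain ⟨a, ha⟩ := exists_enum hr A hA
  obtain ⟨b, hb⟩ := exists_enum hr B hB
  have hsub : (univ.filter fun j : Fin G.length => P j) ⊆
      (univ : Finset (Fin K × Fin K)).biUnion fun p => univ.filter fun j : Fin G.length =>
        decide ((G.get j).2.2 (a p.1 (G.get j).1) = b p.2 (G.get j).2.1) = true := by
    intro j hj
    obtain ⟨s, hs, u, hu, hsu⟩ := hP j (Finset.mem_filter.1 hj).2
    obtain ⟨i, hi⟩ := ha _ s hs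
    obtain ⟨i', hi'⟩ := hb _ u hu
    exact Finset.mem_biUnion.2 ⟨(i, i'), mem_univ _, Finset.mem_filter.2 ⟨mem_univ _, by
      simp only [decide_eq_true_eq, hi, hi', hsu]⟩⟩
  have h1 := (Finset.card_le_card hsub).trans Finset.card_biUnion_le
  have h2 : ((univ.filter fun j : Fin G.length => P j).card : ℝ) ≤
      ∑ p : Fin K × Fin K, (G.sat (a p.1) (b p.2) : ℝ) := by
    refine le_trans (Nat.cast_le.2 h1) ?_
    rw [Nat.cast_sum]
    refine Finset.sum_le_sum fun p _ => le_of_eq ?_
    unfold PG.sat
    rw [← card_filter_get]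
  refine h2.trans ((Finset.sum_le_sum fun p _ => hs (a p.1) (b p.2)).trans (le_of_eq ?_))
  rw [Finset.sum_const, Finset.card_univ, Fintype.card_prod, Fintype.card_fin, nsmul_eq_mul]
  push_cast
  ring

/-- Counting through one block. -/
theorem count_block {n : ℕ} (b : Fin l) (P : (Fin l → Fin n) → Prop) [DecidablePred P] {B : ℝ}
    (h : ∀ x : Fin l → Fin n,
      ((univ.filter fun j : Fin n => P (Function.update x b j)).card : ℝ) ≤ B) :
    ((univ.filter fun x => P x).card : ℝ) * n ≤ (n : ℝ) ^ l * B := by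
  classical
  have h1 : (univ.filter fun p : (Fin l → Fin n) × Fin n => P (Function.update p.1 b p.2)).card =
      (univ.filter fun p : (Fin l → Fin n) × Fin n => P p.1).card := by
    refine Finset.card_bij (fun p _ => (Function.update p.1 b p.2, p.1 b)) ?_ ?_ ?_
    · intro p hp
      exact Finset.mem_filter.2 ⟨mem_univ _, (Finset.mem_filter.1 hp).2⟩
    · intro p _ q _ hpq
      rw [Prod.mk.injEq] at hpq
      obtain ⟨h2, h3⟩ := hpq
      have h4 : p.2 = q.2 := by
        have := congrFun h2 b
        simpa using this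
      have h5 : p.1 = q.1 := by
        funext i
        by_cases hi : i = b
        · rw [hi]; exact h3
        · have := congrFun h2 i
          rwa [Function.update_of_ne hi, Function.update_of_ne hi] at this
      exact Prod.ext h5 h4
    · intro p hp
      refine ⟨(Function.update p.1 b p.2, p.1 b), Finset.mem_filter.2 ⟨mem_univ _, ?_⟩, ?_⟩
      · simpa using (Finset.mem_filter.1 hp).2
      · simp
  have h2 : (univ.filter fun p : (Fin l → Fin n) × Fin n => P p.1).card =
      (univ.filter fun x => P x).card * n := by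
    rw [Finset.card_filter, Finset.card_filter, Fintype.sum_prod_type, Finset.sum_mul]
    refine Finset.sum_congr rfl fun x _ => ?_
    by_cases hx : P x
    · simp [hx]
    · simp [hx]
  have h3 : (univ.filter fun p : (Fin l → Fin n) × Fin n => P (Function.update p.1 b p.2)).card =
      ∑ x : Fin l → Fin n, (univ.filter fun j : Fin n => P (Function.update x b j)).card := by
    simp only [Finset.card_filter, Fintype.sum_prod_type]
  have h4 : ((univ.filter fun x => P x).card : ℝ) * n =
      ∑ x : Fin l → Fin n, ((univ.filter fun j : Fin n => P (Function.update x b j)).card : ℝ) := by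
    rw [← Nat.cast_sum, ← h3, h1, h2, Nat.cast_mul]
  rw [h4]
  refine (Finset.sum_le_sum fun x _ => h x).trans (le_of_eq ?_)
  rw [Finset.sum_const, Finset.card_univ, Fintype.card_fun, Fintype.card_fin, Fintype.card_fin,
    nsmul_eq_mul, Nat.cast_pow]

/-- MODULE E. -/
theorem lists {η : ℝ} {G : PG ℕ ℕ (Fin r) (Fin r)} (hG : G ≠ []) (hs : G.Sound η) {K : ℕ}
    (hK : l * η * K ^ 2 < 1)
    (A B : Fin l → (Fin l → Ed r) → Finset (Fin r))
    (hA : ∀ b e, (A b e).card ≤ K) (hB : ∀ b e, (B b e).card ≤ K)
    (hA' : ∀ b e e', (∀ b', b' ≠ b → e b' = e' b') → (e b).1 = (e' b).1 → A b e = A b e')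
    (hB' : ∀ b e e', (∀ b', b' ≠ b → e b' = e' b') → (e b).2.1 = (e' b).2.1 → B b e = B b e') :
    ∃ e : Fin l → Ed r, (∀ b, e b ∈ G) ∧ ∀ b, ∀ s ∈ A b e, ∀ u ∈ B b e, (e b).2.2 s ≠ u := by
  classical
  have hn : 0 < G.length := List.length_pos_iff.2 hG
  rcases Nat.eq_zero_or_pos r with hr | hr
  · subst hr
    exact ⟨fun _ => G.get ⟨0, hn⟩, fun b => List.get_mem _ _, fun b s => s.elim0⟩
  set n := G.length with hnn
  -- the bad sets
  let bad : Fin l → (Fin l → Fin n) → Prop := fun b x =>
    ∃ s ∈ A b (fun i => G.get (x i)), ∃ u ∈ B b (fun i => G.get (x i)), (G.get (x b)).2.2 s = u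
  have hbad : ∀ b, ((univ.filter fun x => bad b x).card : ℝ) * n ≤
      (n : ℝ) ^ l * (η * K ^ 2 * n) := by
    intro b
    refine count_block b (bad b) fun x => ?_
    -- lists by questions, the other blocks fixed
    let fA : ℕ → Finset (Fin r) := fun q =>
      A b (Function.update (fun i => G.get (x i)) b (q, 0, id))
    let fB : ℕ → Finset (Fin r) := fun q =>
      B b (Function.update (fun i => G.get (x i)) b (0, q, id))
    refine one_block hr hs fA fB (fun _ => hA _ _) (fun _ => hB _ _) _ fun j hj => ?_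
    obtain ⟨s, hs1, u, hu1, hsu⟩ := hj
    rw [Function.update_self] at hsu
    have hupd : (fun i => G.get (Function.update x b j i)) =
        Function.update (fun i => G.get (x i)) b (G.get j) := by
      funext i
      by_cases hi : i = b
      · subst hi; simp
      · simp [Function.update_of_ne hi]
    refine ⟨s, ?_, u, ?_, hsu⟩
    · have h1 : A b (fun i => G.get (Function.update x b j i)) = fA (G.get j).1 := by
        refine hA' b _ _ (fun b' hb' => ?_) ?_
        · simp only [Function.update_of_ne hb']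
        · simp
      rw [← h1]
      exact hs1
    · have h1 : B b (fun i => G.get (Function.update x b j i)) = fB (G.get j).2.1 := by
        refine hB' b _ _ (fun b' hb' => ?_) ?_
        · simp only [Function.update_of_ne hb']
        · simp
      rw [← h1]
      exact hu1
  by_contra hcon
  push Not at hcon
  have hcover : (univ : Finset (Fin l → Fin n)) ⊆
      (univ : Finset (Fin l)).biUnion fun b => univ.filter fun x => bad b x := by
    intro x _
    obtain ⟨b, s, hs1, u, hu1, hsu⟩ := hcon (fun i => G.get (x i)) fun b => List.get_mem _ _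
    exact Finset.mem_biUnion.2 ⟨b, mem_univ _, Finset.mem_filter.2 ⟨mem_univ _,
      s, hs1, u, hu1, hsu⟩⟩
  have h1 := (Finset.card_le_card hcover).trans Finset.card_biUnion_le
  rw [Finset.card_univ, Fintype.card_fun, Fintype.card_fin, Fintype.card_fin] at h1
  have h2 : ((n : ℝ) ^ l) ≤ ∑ b : Fin l, ((univ.filter fun x => bad b x).card : ℝ) := by
    exact_mod_cast h1
  have hn' : (0 : ℝ) < n := by exact_mod_cast hn
  have h3 : (n : ℝ) ^ l * n ≤ l * ((n : ℝ) ^ l * (η * K ^ 2 * n)) := by
    calc (n : ℝ) ^ l * n ≤ (∑ b : Fin l, ((univ.filter fun x => bad b x).card : ℝ)) * n :=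
          mul_le_mul_of_nonneg_right h2 hn'.le
      _ = ∑ b : Fin l, ((univ.filter fun x => bad b x).card : ℝ) * n := Finset.sum_mul _ _ _
      _ ≤ ∑ _b : Fin l, (n : ℝ) ^ l * (η * K ^ 2 * n) := Finset.sum_le_sum fun b _ => hbad b
      _ = l * ((n : ℝ) ^ l * (η * K ^ 2 * n)) := by
          rw [Finset.sum_const, Finset.card_univ, Fintype.card_fin, nsmul_eq_mul]
  have h4 : (0 : ℝ) < (n : ℝ) ^ l * n := by positivity
  have h5 : l * ((n : ℝ) ^ l * (η * K ^ 2 * n)) = ((n : ℝ) ^ l * n) * (l * η * K ^ 2) := by ring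
  rw [h5] at h3
  have h6 := mul_lt_mul_of_pos_left hK h4
  linarith

end Vale.Agent.P342
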