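import Vale.Agent.P342.Defs

/-! P342: the weights. -/

namespace Vale.Agent.P342

open Finset

variable {l : ℕ}

theorem cf_zero {m : ℕ} {t : Fin l → ℕ} {U : Finset (Fin l)} {b : Fin l} (hb : t b = 0)
    (hU : b ∈ U) : cf m t U = 0 := by
  have h1 : hi m t U = 0 := by
    unfold hi
    rw [dif_pos ⟨b, hU⟩]
    have := Finset.inf'_le t hU
    omega
  unfold cf wt
  rw [h1]
  simp

theorem cf_top {m : ℕ} {t : Fin l → ℕ} (ht : ∀ b, t b ≤ m) {U : Finset (Fin l)} {b : Fin l}
    (hb : t b = m) (hU : b ∉ U) : cf m t U = 0 := by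
  have h1 : m ≤ lo t U := by
    unfold lo
    rw [← hb]
    exact Finset.le_sup (f := t) (by simpa using hU)
  have h2 : hi m t U ≤ m := by
    unfold hi
    split_ifs with h
    · obtain ⟨x, hx⟩ := h
      exact (Finset.inf'_le t hx).trans (ht x)
    · exact le_rfl
  unfold cf wt
  rw [Nat.sub_eq_zero_of_le (h2.trans h1)]
  simp

/-- the superlevel set -/
theorem level_iff {m : ℕ} {t : Fin l → ℕ} {U : Finset (Fin l)} {j : ℕ} (hj : j ≤ m) (hj0 : 0 < j) :
    (univ.filter fun b => j ≤ t b) = U ↔ lo t U < j ∧ j ≤ hi m t U := by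
  constructor
  · rintro rfl
    constructor
    · unfold lo
      rw [Finset.sup_lt_iff hj0]
      intro b hb
      simpa using hb
    · unfold hi
      split_ifs with h
      · rw [Finset.le_inf'_iff]
        intro b hb
        simpa using hb
      · exact hj
  · rintro ⟨h1, h2⟩
    ext b
    rw [Finset.mem_filter]
    constructor
    · rintro ⟨-, hb⟩
      by_contra hbU
      have : t b ≤ lo t U := Finset.le_sup (f := t) (by simpa using hbU)
      omega
    · intro hb
      refine ⟨mem_univ _, ?_⟩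
      unfold hi at h2
      rw [dif_pos ⟨b, hb⟩] at h2
      exact h2.trans (Finset.inf'_le t hb)

theorem wt_eq_card {m : ℕ} {t : Fin l → ℕ} (ht : ∀ b, t b ≤ m) (U : Finset (Fin l)) :
    wt m t U = ((Finset.Ioc 0 m).filter fun j => (univ.filter fun b => j ≤ t b) = U).card := by
  have h2 : hi m t U ≤ m := by
    unfold hi
    split_ifs with h
    · obtain ⟨x, hx⟩ := h
      exact (Finset.inf'_le t hx).trans (ht x)
    · exact le_rfl
  have h3 : ((Finset.Ioc 0 m).filter fun j => (univ.filter fun b => j ≤ t b) = U) =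
      Finset.Ioc (lo t U) (hi m t U) := by
    ext j
    rw [Finset.mem_filter, Finset.mem_Ioc, Finset.mem_Ioc]
    constructor
    · rintro ⟨⟨h4, h5⟩, h6⟩
      exact (level_iff h5 h4).1 h6
    · rintro ⟨h4, h5⟩
      have h6 : 0 < j := by omega
      have h7 : j ≤ m := h5.trans h2
      exact ⟨⟨h6, h7⟩, (level_iff h7 h6).2 ⟨h4, h5⟩⟩
  rw [h3, Nat.card_Ioc]
  rfl

theorem cf_full {m : ℕ} {t : Fin l → ℕ} (ht : IsType m t) (hm : 0 < m) :
    ∃ U : Finset (Fin l), U.Nonempty ∧ cf m t U = m := by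
  have hsum : ∑ U : Finset (Fin l), wt m t U = m := by
    rw [Finset.sum_congr rfl fun U _ => wt_eq_card ht.1 U,
      ← Finset.card_eq_sum_card_fiberwise (f := fun j => univ.filter fun b => j ≤ t b)
        (t := univ) (fun _ _ => Finset.mem_coe.2 (mem_univ _)), Nat.card_Ioc, Nat.sub_zero]
  obtain ⟨U, hU⟩ : ∃ U : Finset (Fin l), m ≤ 2 ^ l * wt m t U := by
    by_contra hcon
    push Not at hcon
    have h1 : ∑ U : Finset (Fin l), 2 ^ l * wt m t U < ∑ _U : Finset (Fin l), m :=
      Finset.sum_lt_sum_of_nonempty ⟨∅, mem_univ _⟩ fun U _ => hcon U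
    rw [← Finset.mul_sum, hsum, Finset.sum_const, Finset.card_univ, Fintype.card_finset,
      Fintype.card_fin, smul_eq_mul] at h1
    exact lt_irrefl _ h1
  refine ⟨U, ?_, ?_⟩
  · by_contra hU0
    rw [Finset.not_nonempty_iff_eq_empty] at hU0
    subst hU0
    obtain ⟨b, hb⟩ := ht.2
    have h1 : m ≤ lo t ∅ := by
      unfold lo
      rw [← hb]
      exact Finset.le_sup (f := t) (by simp)
    have h2 : hi m t ∅ = m := by
      unfold hi
      simp
    have h3 : wt m t ∅ = 0 := by
      unfold wt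
      omega
    rw [h3] at hU
    omega
  · unfold cf
    exact min_eq_left hU

theorem hi_le {m : ℕ} {t t' : Fin l → ℕ} (h : Near t t') (U : Finset (Fin l)) :
    hi m t U ≤ hi m t' U + 1 := by
  unfold hi
  split_ifs with hU
  · obtain ⟨b, hb, hb'⟩ := Finset.exists_mem_eq_inf' hU t'
    rw [hb']
    exact (Finset.inf'_le t hb).trans (h b).1
  · omega

theorem lo_le {t t' : Fin l → ℕ} (h : Near t t') (U : Finset (Fin l)) :
    lo t' U ≤ lo t U + 1 := by
  unfold lo
  refine Finset.sup_le fun b hb => ?_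
  have h1 : t b ≤ Uᶜ.sup t := Finset.le_sup hb
  have h2 := (h b).2
  omega

theorem cf_lip {m : ℕ} {t t' : Fin l → ℕ} (h : Near t t') (U : Finset (Fin l)) :
    cf m t U ≤ cf m t' U + 2 * 2 ^ l := by
  have h1 := hi_le (m := m) h U
  have h2 := lo_le h U
  have h3 : wt m t U ≤ wt m t' U + 2 := by
    unfold wt
    omega
  have h4 : 2 ^ l * wt m t U ≤ 2 ^ l * wt m t' U + 2 * 2 ^ l := by
    nlinarith [Nat.two_pow_pos l]
  unfold cf
  omega

end Vale.Agent.P342
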