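import Vale.Agent.P342.H266.AnalyticMain
import Vale.Agent.P342.H733.Geometry
import Vale.Agent.P342.H887.Visible
import Vale.Agent.P342.H948.Weights
import Vale.Agent.P342.H948.Lists
import Vale.Agent.P342.H948.Compl
import Vale.Agent.P342.H948.Sound
import Vale.Agent.P342.H948.NoCol

/-! P342: soundness from the modules. -/

namespace Vale.Agent.P342

open Vale.Agent.Lib.PCP Finset

variable {l r : ℕ}

/-- Some colour is dense. -/
theorem exists_dense {I A : Type} [Fintype I] [DecidableEq I] [Fintype A] [DecidableEq A] {c : ℕ}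
    (F : (I → A) → Fin c) (J : Finset I) (x : I → A) : ∃ a, Dense F J a x := by
  classical
  by_contra hcon
  push Not at hcon
  have h1 : (univ.filter fun y : I → A => ∀ i ∈ J, y i = x i).card =
      ∑ a : Fin c, (univ.filter fun y : I → A => (∀ i ∈ J, y i = x i) ∧ F y = a).card := by
    rw [Finset.card_eq_sum_card_fiberwise (f := F) (t := univ) (fun _ _ => Finset.mem_coe.2 (mem_univ _))]
    refine Finset.sum_congr rfl fun a _ => ?_
    rw [Finset.filter_filter]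
  have hc : 0 < c := (F x).pos
  have h2 : ∀ a : Fin c, c * (univ.filter fun y : I → A => (∀ i ∈ J, y i = x i) ∧ F y = a).card <
      (univ.filter fun y : I → A => ∀ i ∈ J, y i = x i).card := by
    intro a
    have := hcon a
    unfold Dense at this
    exact not_le.1 this
  have h3 : c * (univ.filter fun y : I → A => ∀ i ∈ J, y i = x i).card <
      ∑ _a : Fin c, (univ.filter fun y : I → A => ∀ i ∈ J, y i = x i).card := by
    conv_lhs => rw [h1]
    rw [Finset.mul_sum]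
    exact Finset.sum_lt_sum_of_nonempty ⟨⟨0, hc⟩, mem_univ _⟩ fun a _ => h2 a
  rw [Finset.sum_const, Finset.card_univ, Fintype.card_fin, smul_eq_mul] at h3
  exact lt_irrefl _ h3

/-- Density depends only on the coordinates in `J`. -/
theorem dense_congr {I A : Type} [Fintype I] [DecidableEq I] [Fintype A] [DecidableEq A] {c : ℕ}
    (F : (I → A) → Fin c) (J : Finset I) (a : Fin c) {x x' : I → A} (h : ∀ i ∈ J, x i = x' i) :
    Dense F J a x ↔ Dense F J a x' := by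
  have h1 : ∀ y : I → A, (∀ i ∈ J, y i = x i) ↔ (∀ i ∈ J, y i = x' i) := fun y =>
    forall_congr' fun i => forall_congr' fun hi => by rw [h i hi]
  unfold Dense
  simp only [h1]

theorem proj_apply_mem {e : Fin l → Ed r} {U : Finset (Fin l)} {ν : Fin l → Fin r} {b : Fin l}
    (hb : b ∈ U) : proj e U ∅ ν b = (e b).2.2 (ν b) := by
  simp [proj, hb]

theorem proj_apply_not_mem {e : Fin l → Ed r} {U V : Finset (Fin l)} {ν : Fin l → Fin r}
    {b : Fin l} (hb : b ∉ U) : proj e U V ν b = ν b := by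
  simp [proj, hb]

/-- The core of the soundness proof, for given parameters. -/
theorem core {c m D L K Q : ℕ} [NeZero Q] (hc0 : 0 < c) (hm1 : 1 ≤ m)
    (hm : 1000 * (2 ^ c) ^ 2 ≤ m) (hD : D = 100 * 2 ^ c) (hQ1 : 1000 * 2 ^ c ≤ Q) (hQ2 : Even Q)
    {T : Type} [Fintype T] (τ : T → Fin c → ℕ) (hτ : ∀ x, IsType m (τ x))
    (hτ' : ∀ t, IsType m t → ∃ x, τ x = t) (hK : Fintype.card T * L ≤ K) {η η1 : ℝ}
    (hη1 : Fintype.card T * 2 ^ c * c * η1 < 1) (hη : c * η * K ^ 2 < 1)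
    [NeZero r] (G : PG ℕ ℕ (Fin r) (Fin r)) (hG : G ≠ []) (hs : G.Sound η)
    (J : ((Ix c r → Fin Q) → Fin c) → Finset (Ix c r)) (hJ1 : ∀ F, (J F).card ≤ L)
    (hJ2 : ∀ F, ∀ a : Fin c,
      (∃ (hdec : DecidablePred fun x : Ix c r → Fin Q => Dense F (J F) a x ∧ Far D F a x),
      ((univ.filter fun x : Ix c r → Fin Q => Dense F (J F) a x ∧ Far D F a x).card : ℝ) ≤
        η1 * (Q : ℝ) ^ Fintype.card (Ix c r)))
    (col : Vx c r → Fin c) (hcol : ∀ v v', Adj G v v' → col v ≠ col v') : False := by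
  classical
  -- full sets
  have hfull : ∀ t : Fin c → ℕ, ∃ U : Finset (Fin c), IsType m t → U.Nonempty ∧ cf m t U = m := by
    intro t
    by_cases h : IsType m t
    · obtain ⟨U, hU⟩ := cf_full h hm1
      exact ⟨U, fun _ => hU⟩
    · exact ⟨∅, fun h' => absurd h' h⟩
  choose U0 hU0 using hfull
  let Fc : (Fin c → Ed r) → (Fin c → ℕ) → (Ix c r → Fin Q) → Fin c :=
    fun e t ω => col (pt m Q t (U0 t) e ω)
  -- lists
  let lst : ((Fin c → ℕ) → Prop) → Fin c → (Fin c → Ed r) → Finset (Fin r) := fun P b e =>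
    (univ.filter fun t : T => P (τ t)).biUnion fun t =>
      ((J (Fc e (τ t))).filter fun i => i.1.1 = U0 (τ t)).image fun i => i.2 b
  have hlst : ∀ P b e, (lst P b e).card ≤ K := by
    intro P b e
    refine Finset.card_biUnion_le.trans ?_
    refine (Finset.sum_le_sum (g := fun _ => L) fun t _ => ?_).trans ?_
    · exact Finset.card_image_le.trans ((Finset.card_filter_le _ _).trans (hJ1 _))
    · rw [Finset.sum_const, smul_eq_mul]
      refine le_trans ?_ hK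
      exact Nat.mul_le_mul_right _ ((Finset.card_filter_le _ _).trans (by rw [Finset.card_univ]))
  have hlst' : ∀ (P : (Fin c → ℕ) → Prop) b e e', (∀ t : Fin c → ℕ, IsType m t → P t →
      pt m Q t (U0 t) e = pt m Q t (U0 t) e') → lst P b e = lst P b e' := by
    intro P b e e' h
    refine Finset.biUnion_congr rfl fun t ht => ?_
    have h1 : Fc e (τ t) = Fc e' (τ t) := by
      funext ω
      simp only [Fc]
      rw [h _ (hτ t) (Finset.mem_filter.1 ht).2]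
    rw [h1]
  have hmem : ∀ (P : (Fin c → ℕ) → Prop) b e x, P (τ x) → ∀ i ∈ J (Fc e (τ x)),
      i.1.1 = U0 (τ x) → i.2 b ∈ lst P b e := by
    intro P b e x hP i h1 h2
    exact Finset.mem_biUnion.2 ⟨x, Finset.mem_filter.2 ⟨mem_univ _, hP⟩,
      Finset.mem_image.2 ⟨i, Finset.mem_filter.2 ⟨h1, h2⟩, rfl⟩⟩
  obtain ⟨lA, hlA⟩ : ∃ lA : Fin c → (Fin c → Ed r) → Finset (Fin r),
      ∀ b e, lA b e = lst (fun t => t b = m) b e := ⟨_, fun _ _ => rfl⟩
  obtain ⟨lB, hlB⟩ : ∃ lB : Fin c → (Fin c → Ed r) → Finset (Fin r),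
      ∀ b e, lB b e = lst (fun t => t b = 0) b e := ⟨_, fun _ _ => rfl⟩
  have hA' : ∀ (b : Fin c) (e e' : Fin c → Ed r), (∀ b', b' ≠ b → e b' = e' b') →
      (e b).1 = (e' b).1 → lA b e = lA b e' := by
    intro b e e' h1 h2
    rw [hlA, hlA]
    exact hlst' _ b e e' fun t ht hP => pt_visible ht.1 (hU0 t ht).2 hm1 h1 (Or.inl ⟨hP, h2⟩)
  have hB' : ∀ (b : Fin c) (e e' : Fin c → Ed r), (∀ b', b' ≠ b → e b' = e' b') →
      (e b).2.1 = (e' b).2.1 → lB b e = lB b e' := by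
    intro b e e' h1 h2
    rw [hlB, hlB]
    exact hlst' _ b e e' fun t ht hP => pt_visible ht.1 (hU0 t ht).2 hm1 h1 (Or.inr ⟨hP, h2⟩)
  obtain ⟨e, heG, he⟩ := lists (l := c) hG hs (K := K) hη lA lB
    (fun b e => by rw [hlA]; exact hlst (fun t => t b = m) b e)
    (fun b e => by rw [hlB]; exact hlst (fun t => t b = 0) b e) hA' hB'
  -- the coarse leaders
  let S : (Fin c → ℕ) → (Fin c → Fin r) → Prop := fun t ρ =>
    ∃ i ∈ J (Fc e t), i.1.1 = U0 t ∧ ρ = proj e (U0 t) ∅ i.2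
  have hdisj : ∀ t t' : Fin c → ℕ, IsType m t → IsType m t' → ∀ b, t b = m → t' b = 0 →
      ∀ ρ, S t ρ → S t' ρ → False := by
    rintro t t' ht ht' b hb hb' ρ ⟨i, hi1, hi2, hi3⟩ ⟨i', hi1', hi2', hi3'⟩
    have hbU : b ∈ U0 t := by
      by_contra hb1
      have := cf_top ht.1 hb hb1
      rw [(hU0 t ht).2] at this
      omega
    have hbU' : b ∉ U0 t' := by
      intro hb1
      have := cf_zero (m := m) hb' hb1
      rw [(hU0 t' ht').2] at this
      omega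
    have h1 : (e b).2.2 (i.2 b) = i'.2 b := by
      have h2 := congrFun (hi3.symm.trans hi3') b
      rwa [proj_apply_mem hbU, proj_apply_not_mem hbU'] at h2
    obtain ⟨x, rfl⟩ := hτ' t ht
    obtain ⟨x', rfl⟩ := hτ' t' ht'
    refine he b (i.2 b) ?_ (i'.2 b) ?_ h1
    · rw [hlA]
      exact hmem (fun t => t b = m) b e x hb i hi1 hi2
    · rw [hlB]
      exact hmem (fun t => t b = 0) b e x' hb' i' hi1' hi2'
  -- the level of a leader
  have hlev : ∀ ρ : Fin c → Fin r, ∃ b : Fin c, ∀ t, IsType m t → t b = 0 → ¬ S t ρ := by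
    intro ρ
    by_cases h : ∃ t, IsType m t ∧ S t ρ
    · obtain ⟨t, ht, hρ⟩ := h
      obtain ⟨b, hb⟩ := ht.2
      exact ⟨b, fun t' ht' hb' hρ' => hdisj t t' ht ht' b hb hb' ρ hρ hρ'⟩
    · push Not at h
      exact ⟨⟨0, hc0⟩, fun t ht _ => h t ht⟩
  choose lev hlev using hlev
  -- freezing
  obtain ⟨θ, ζ, hgood⟩ := exists_good (T := T) (Q := Q) e (fun t => U0 (τ t))
    (fun t => Fc e (τ t)) (fun t => J (Fc e (τ t))) lev D (η := η1) hη1 (by
      intro t a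
      obtain ⟨_, h⟩ := hJ2 (Fc e (τ t)) a
      convert h)
  have hgood' : ∀ t, IsType m t → ∀ y a,
      Dense (Fc e t) (J (Fc e t)) a (wash Q (U0 t) e (shift Q lev y θ) ζ) →
      ∃ α, Fc e t α = a ∧ ∀ i, D * dst (wash Q (U0 t) e (shift Q lev y θ) ζ i) (α i) ≤ Q := by
    intro t ht y a hd
    obtain ⟨x, rfl⟩ := hτ' t ht
    have h3 := hgood x y a hd
    unfold Far at h3
    push Not at h3
    exact h3
  -- the colour sets
  refine no_col (l := c) hm1 (fun t y => univ.filter fun a =>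
    Dense (Fc e t) (J (Fc e t)) a (wash Q (U0 t) e (shift Q lev y θ) ζ)) ?_ ?_ ?_ hc0
  · intro t y _
    obtain ⟨a, ha⟩ := exists_dense (Fc e t) (J (Fc e t)) (wash Q (U0 t) e (shift Q lev y θ) ζ)
    exact ⟨a, Finset.mem_filter.2 ⟨mem_univ _, ha⟩⟩
  · intro t y y1 ht hy
    refine Finset.filter_congr fun a _ => dense_congr _ _ _ fun i hi => ?_
    unfold wash
    split_ifs with h1
    · congr 1
      have h2 : S t (proj e i.1.1 ∅ i.2) := ⟨i, hi, h1, by rw [h1]⟩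
      have h3 : t (lev (proj e i.1.1 ∅ i.2)) ≠ 0 := fun h4 => hlev _ t ht h4 h2
      unfold shift
      rw [hy _ h3]
    · rfl
  · intro t t1 y ht ht1 hn
    rw [Finset.disjoint_left]
    intro a ha ha1
    obtain ⟨α, hα1, hα2⟩ := hgood' t ht y a (Finset.mem_filter.1 ha).2
    obtain ⟨α', hα1', hα2'⟩ := hgood' t1 ht1 _ a (Finset.mem_filter.1 ha1).2
    rw [hD] at hα2 hα2'
    refine hcol (pt m Q t (U0 t) e α) (pt m Q t1 (U0 t1) e α') ⟨e, heG, supp t, supp t1, rfl, rfl,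
      fun n => ?_⟩ (hα1.trans hα1'.symm)
    exact geometry (m := m) (Q := Q) hm hQ1 hQ2 ht ht1 hn (hU0 t ht).1 (hU0 t1 ht1).1
      (hU0 t ht).2 (hU0 t1 ht1).2 e (shift Q lev y θ) (shift Q lev (fun b => !y b) θ) ζ
      (shift_not hQ2 lev y θ) α α' hα2 hα2' n

/-- MODULE D: soundness. -/
theorem soundness (c : ℕ) : ∃ (l : ℕ) (η : ℝ), 0 < η ∧ ∀ (r : ℕ) [NeZero r]
    (G : PG ℕ ℕ (Fin r) (Fin r)), G ≠ [] → G.Sound η →
      ¬ ∃ col : Vx l r → Fin c, ∀ v v', Adj G v v' → col v ≠ col v' := by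
  classical
  rcases Nat.eq_zero_or_pos c with hc0 | hc0
  · subst hc0
    refine ⟨0, 1, one_pos, ?_⟩
    rintro r _ G _ _ ⟨col, _⟩
    exact (col (fun _ => (true, 0), fun _ => 0)).elim0
  obtain ⟨m, hm⟩ : ∃ m : ℕ, m = 1000 * (2 ^ c) ^ 2 := ⟨_, rfl⟩
  obtain ⟨D, hD⟩ : ∃ D : ℕ, D = 100 * 2 ^ c := ⟨_, rfl⟩
  have hm1 : 1 ≤ m := by
    have : 0 < (2 ^ c) ^ 2 := by positivity
    omega
  have hD0 : 0 < D := by rw [hD]; positivity
  let T := {t : Fin c → Fin (m + 1) // IsType m fun b => (t b : ℕ)}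
  obtain ⟨NT, hNT⟩ : ∃ NT : ℕ, NT = Fintype.card T := ⟨_, rfl⟩
  obtain ⟨η1, hη1⟩ : ∃ η1 : ℝ, η1 = 1 / (NT * 2 ^ c * c + 1) := ⟨_, rfl⟩
  have hη1' : 0 < η1 := by rw [hη1]; positivity
  obtain ⟨L, hL⟩ := analytic c D hD0 η1 hη1'
  obtain ⟨K, hK⟩ : ∃ K : ℕ, K = NT * L := ⟨_, rfl⟩
  obtain ⟨η, hη⟩ : ∃ η : ℝ, η = 1 / (c * K ^ 2 + 1) := ⟨_, rfl⟩
  have hη' : 0 < η := by rw [hη]; positivity
  refine ⟨c, η, hη', ?_⟩
  rintro r _ G hG hs ⟨col, hcol⟩
  obtain ⟨k0, hk0⟩ := hL (Ix c r)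
  obtain ⟨k, hk⟩ : ∃ k : ℕ, k = k0 + (c + 10) := ⟨_, rfl⟩
  have hAL := hk0 k (by omega)
  have hQ1 : 1000 * 2 ^ c ≤ 2 ^ k := by
    have h1 : (2 : ℕ) ^ k = 2 ^ k0 * (2 ^ c * 2 ^ 10) := by
      rw [hk, pow_add, pow_add]
    rw [h1]
    have h2 : 1 ≤ 2 ^ k0 := Nat.one_le_two_pow
    have h3 : 0 < 2 ^ c := by positivity
    nlinarith
  have hQ2 : Even (2 ^ k) := by
    rw [Nat.even_pow]
    exact ⟨even_two, by omega⟩
  choose J hJ1 hJ2 using hAL
  refine core (r := r) (Q := 2 ^ k) (T := T) hc0 hm1 hm.symm.le hD hQ1 hQ2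
    (fun t b => (t.1 b : ℕ)) (fun t => t.2) (fun t ht => ?_) (L := L) (K := K) ?_ ?_ ?_
    G hG hs J hJ1 (fun F a => ⟨Classical.decPred _, ?_⟩) col hcol (η := η) (η1 := η1)
  · exact ⟨⟨fun b => ⟨t b, Nat.lt_succ_of_le (ht.1 b)⟩, ht⟩, rfl⟩
  · rw [hK, hNT]
  · rw [← hNT, hη1]
    have h1 : (0 : ℝ) < NT * 2 ^ c * c + 1 := by positivity
    rw [mul_one_div, div_lt_one h1]
    linarith
  · rw [hη]
    have h1 : (0 : ℝ) < c * K ^ 2 + 1 := by positivity
    rw [mul_one_div, div_mul_eq_mul_div, div_lt_one h1]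
    linarith
  · have := hJ2 F a
    push_cast
    convert this

end Vale.Agent.P342
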